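import Vale.Agent.Lib.P321B.MainThmB

namespace Vale.Agent.Results.P321.A_sevenfourths

open Vale.Agent.Lib.P321

/-- Lower bound for worst-case trace reconstruction: for every deletion probability `q` and every `ε > 0`,
`T_q(n) ≥ c n^(7/4 - ε)` for all large `n`. -/
theorem result : ∀ q : ℝ, 0 < q → q < 1 → ∀ ε : ℝ, 0 < ε →
    ∃ c : ℝ, 0 < c ∧ ∃ n₀ : ℕ, ∀ n : ℕ, n₀ ≤ n → ∀ m : ℕ, CanReconstruct q n m →
      c * (n : ℝ) ^ ((7 : ℝ) / 4 - ε) ≤ (m : ℝ) :=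
  fun _ h0 h1 _ hε => Vale.Agent.Lib.P321B.main_eps h0 h1 hε

end Vale.Agent.Results.P321.A_sevenfourths
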